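import Vale.Agent.P046.Phase.Main
import Vale.Agent.P046.Phase.Complete
import Vale.Agent.P046.Phase.Upper

namespace Vale.Agent.Results.P046.LeadingConstant

open Filter Topology Vale.Agent.P046

/-- The number of edges left by random triangle removal from the complete graph, divided by
`n ^ (3/2)`, tends to `1 / (2 * sqrt 2)` in mean and in probability. -/
theorem result :
    Tendsto (fun n : ℕ => expFinal (fun G => (G.card : ℝ))
        ((Finset.univ : Finset (Fin n)).powersetCard 2) / (n:ℝ) ^ ((3:ℝ) / 2))
      atTop (𝓝 (1 / (2 * Real.sqrt 2))) ∧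
    ∀ ε : ℝ, 0 < ε → Tendsto (fun n : ℕ => expFinal (fun G =>
        if ε ≤ |(G.card : ℝ) / (n:ℝ) ^ ((3:ℝ) / 2) - 1 / (2 * Real.sqrt 2)| then 1 else 0)
          ((Finset.univ : Finset (Fin n)).powersetCard 2)) atTop (𝓝 0) :=
  Phase.limits_of_present Phase.Upper.present

end Vale.Agent.Results.P046.LeadingConstant
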