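import Vale.Agent.P046.Trajectory

namespace Vale.Agent.Results.P046.Trajectory

/-- At every step of random triangle removal from the complete graph, the expected number of
triangles is at most the pseudo-random value plus a third of the number of edges, plus two. -/
theorem result : ∀ n i : ℕ,
    Vale.Agent.P046.expTriangles i ((Finset.univ : Finset (Fin n)).powersetCard 2) ≤
      (n.choose 3 : ℝ) * (((n.choose 2 - 3 * i : ℕ) : ℝ) / n.choose 2) ^ 3
        + ((n.choose 2 - 3 * i : ℕ) : ℝ) / 3 + 2 :=
  Vale.Agent.P046.expTriangles_complete

end Vale.Agent.Results.P046.Trajectory
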